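import Vale.Agent.P291.MathlibUsed

set_option autoImplicit false

namespace Vale.Agent.P291.T

/-- A finite quiver, dimension vectors `v, w`, and a torus `F` of rank `rk` acting on `N` through
characters `ta` on arrows and `tw` on framing vectors. -/
structure QData where
  I : Type
  A : Type
  [fI : Fintype I]
  [dI : DecidableEq I]
  [fA : Fintype A]
  src : A → I
  tgt : A → I
  v : I → ℕ
  w : I → ℕ
  rk : ℕ
  ta : A → Fin rk → ℤ
  tw : (i : I) → Fin (w i) → Fin rk → ℤ

attribute [instance] QData.fI QData.dI QData.fA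

/-- basis vectors of `⊕ V i` -/
abbrev B (D : QData) : Type := Σ i : D.I, Fin (D.v i)

/-- the Weyl group of `G` -/
abbrev W (D : QData) : Type := (i : D.I) → Equiv.Perm (Fin (D.v i))

variable (D : QData)

/-- the Weyl group permutes the basis vectors -/
def pm (σ : W D) (b : B D) : B D := ⟨b.1, σ b.1 b.2⟩

section
variable {C : Type} [CommRing C] (x : B D → C)

/-- product of `φ χ ⟨χ, l⟩` over the weights `χ` of `N = ⊕ Hom(V (src a), V (tgt a)) ⊕ ⊕ Hom(V i, W i)`,
at the gauge parameters `x` and the flavor parameters `t` -/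
def wts (t : D.A ⊕ (Σ i : D.I, Fin (D.w i)) → C) (φ : C → ℤ → C) (l : B D → ℤ) : C :=
  (∏ a, ∏ r, ∏ s, φ (x ⟨D.tgt a, s⟩ - x ⟨D.src a, r⟩ + t (.inl a))
      (l ⟨D.tgt a, s⟩ - l ⟨D.src a, r⟩)) *
    ∏ i, ∏ r, ∏ k, φ (t (.inr ⟨i, k⟩) - x ⟨i, r⟩) (-l ⟨i, r⟩)

/-- product of `φ α ⟨α, l⟩` over the roots `α` of `G` (and over the zero weights) -/
def rts (φ : C → ℤ → C) (l : B D → ℤ) : C :=
  ∏ i, ∏ r, ∏ s, φ (x ⟨i, r⟩ - x ⟨i, s⟩) (l ⟨i, r⟩ - l ⟨i, s⟩)

/-- value of a polynomial -/
noncomputable def val {T : Type} [Algebra ℂ C] (p : T → C) (f : MvPolynomial T ℂ) : C :=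
  f.eval₂ (algebraMap ℂ C) p

/-- the flavor parameters defined by `y ∈ Lie F` -/
def fl (y : Fin D.rk → C) : D.A ⊕ (Σ i : D.I, Fin (D.w i)) → C :=
  Sum.elim (fun a => ∑ j, D.ta a j * y j) fun p => ∑ j, D.tw p.1 p.2 j * y j

end

section
variable {K L : Type} [Field K] [Algebra ℂ K] [CommRing L] [Algebra K L]
  (x : B D → K) (y : Fin D.rk → K) (u : (B D → ℤ) → L) (ν : D.I → ℤ)

/-- dressed monopole operator `∑_{σ ∈ W} σ (f · eul l / rts l · u^l)` -/
noncomputable def mono (l : B D → ℤ) (f : MvPolynomial (B D ⊕ Fin D.rk) ℂ) : L :=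
  ∑ σ : W D, (val (Sum.elim (x ∘ pm D σ) y) f *
    wts D (x ∘ pm D σ) (fl D y) (fun χ c => χ ^ (-c).toNat) l /
      rts D (x ∘ pm D σ) (fun α c => α ^ c.toNat) l) • u (l ∘ pm D σ⁻¹)

/-- `R = H_{G × F}(pt)`: polynomials in `x, y` which are symmetric in each group of variables -/
def R : Set K := {z | ∃ f, ∀ σ, val (Sum.elim (x ∘ pm D σ) y) f = z}

/-- `0/1`-valued cocharacters -/
def Min (l : B D → ℤ) : Prop := ∀ b, l b = 0 ∨ l b = 1

/-- the flavor-deformed Coulomb branch algebra in its abelianized description -/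
noncomputable def coulomb : Subring L :=
  Subring.closure {a | (∃ r ∈ R D x y, a = algebraMap K L r) ∨
    ∃ l f, Min D l ∧ (a = mono D x y u l f ∨ a = mono D x y u (-l) f)}

/-- `ν`-weight of a cocharacter -/
def wt (l : B D → ℤ) : ℤ := ∑ b : B D, ν b.1 * l b

/-- the ideal of `A_F` generated by the elements of nonzero weight -/
noncomputable def fixI : AddSubgroup L :=
  AddSubgroup.closure {c | ∃ a ∈ coulomb D x y u, ∃ b ∈ coulomb D x y u, ∃ m, m ≠ 0 ∧
    b ∈ Submodule.span K (u '' {l | wt D ν l = m}) ∧ c = a * b}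

/-- sums of products of a positive and a negative minuscule operator of opposite charges -/
noncomputable def quad : AddSubgroup L :=
  AddSubgroup.closure {c | ∃ l f g, Min D l ∧ l ≠ 0 ∧ c = mono D x y u l f * mono D x y u (-l) g}

end

/-- The set of values `ev g` of the `act`-invariant `g` in `C` for which `g` times the product of
the `α` and `ħ + α` over the roots is in the ideal of the classes of the loci of `T^*N` contracted by
the cocharacters `l` with `ν·l < 0`. -/
def HP {C K : Type} [CommRing C] (X : B D → C) (t : D.A ⊕ (Σ i : D.I, Fin (D.w i)) → C) (h : C)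
    (act : W D → C → C) (ev : C → K) (ν : D.I → ℤ) : Set K :=
  {z | ∃ g, (∀ σ, act σ g = g) ∧
    g * rts D X (fun α c => if c = 0 then 1 else α * (h + α)) (fun b => (b.2 : ℕ)) ∈
      Ideal.span {p | ∃ l, wt D ν l < 0 ∧
        p = wts D X t (fun χ c => if c < 0 then χ else if 0 < c then h - χ else 1) l} ∧ ev g = z}

/-- flavor variables: arrows, framing vectors, `ħ`, coordinates on `Lie F` -/
abbrev Z : Type := (D.A ⊕ (Σ i : D.I, Fin (D.w i))) ⊕ (Unit ⊕ Fin D.rk)

/-- the kernel of the Kirwan map, by the theorem of Hausel and Proudfoot -/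
noncomputable def kerH {K : Type} [Field K] [Algebra ℂ K] (x : B D → K) (y : Fin D.rk → K) :
    (D.I → ℤ) → Set K :=
  let X : B D ⊕ Z D → MvPolynomial (B D ⊕ Z D) ℂ := MvPolynomial.X
  HP D (fun b => X (.inl b)) (fun a => X (.inr (.inl a))) (X (.inr (.inr (.inl ()))))
    (fun σ => val (Sum.elim (fun b => X (.inl (pm D σ b))) fun c => X (.inr c)))
    (val (Sum.elim x (Sum.elim (fl D y) (Sum.elim 0 y))))

end Vale.Agent.P291.T
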