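import Vale.Agent.P291.MathlibUsed

set_option autoImplicit false

namespace Vale.Agent.P291.Q

/-- A finite quiver, dimension vectors `v, w`, and a torus `F` of rank `rk` acting on `N` through
characters `ta` on arrows and `tw` on framing vectors. -/
structure QData where
  I : Type
  A : Type
  [fI : Fintype I]
  [dI : DecidableEq I]
  [fA : Fintype A]
  src : A → I
  tgt : A → I
  v : I → ℕ
  w : I → ℕ
  rk : ℕ
  ta : A → Fin rk → ℤ
  tw : (i : I) → Fin (w i) → Fin rk → ℤ

attribute [instance] QData.fI QData.dI QData.fA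

/-- basis vectors of `⊕ V i` -/
abbrev B (D : QData) : Type := Σ i : D.I, Fin (D.v i)

/-- the Weyl group of `G` -/
abbrev W (D : QData) : Type := (i : D.I) → Equiv.Perm (Fin (D.v i))

variable (D : QData)

/-- flavors: arrows and framing vectors -/
abbrev Fl : Type := D.A ⊕ (Σ i : D.I, Fin (D.w i))

/-- the Weyl group permutes the basis vectors -/
def pm (σ : W D) : B D → B D := Sigma.map id fun i => σ i

section
variable {C : Type} [CommRing C] (x : B D → C)

/-- product of `φ χ ⟨χ, l⟩` over the weights `χ` of `N = ⊕ Hom(V (src a), V (tgt a)) ⊕ ⊕ Hom(V i, W i)`,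
at the gauge parameters `x` and the flavor parameters `t` -/
def wts (t : Fl D → C) (φ : C → ℤ → C) (l : B D → ℤ) : C :=
  (∏ a, ∏ r, ∏ s, φ (x ⟨D.tgt a, s⟩ - x ⟨D.src a, r⟩ + t (.inl a))
      (l ⟨D.tgt a, s⟩ - l ⟨D.src a, r⟩)) *
    ∏ i, ∏ r, ∏ k, φ (t (.inr ⟨i, k⟩) - x ⟨i, r⟩) (-l ⟨i, r⟩)

/-- product of `φ α ⟨α, l⟩` over the roots `α` of `G` (and over the zero weights) -/
def rts (φ : C → ℤ → C) (l : B D → ℤ) : C :=
  ∏ i, ∏ r, ∏ s, φ (x ⟨i, r⟩ - x ⟨i, s⟩) (l ⟨i, r⟩ - l ⟨i, s⟩)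

/-- product of the `φ α` over the roots `α` -/
def disc (φ : C → C) : C :=
  rts D x (fun α c => if c = 0 then 1 else φ α) fun b => (b.2 : ℕ)

/-- the ideal generated by the products of the `ψ χ ⟨χ, l⟩` over the weights `χ` of `N`, for the
cocharacters `l` with `P l` -/
def cut (t : Fl D → C) (ψ : C → ℤ → C) (P : (B D → ℤ) → Prop) : Ideal C :=
  Ideal.span {p | ∃ l, P l ∧ p = wts D x t ψ l}

/-- value of a polynomial -/
noncomputable def val {T : Type} [Algebra ℂ C] (p : T → C) (f : MvPolynomial T ℂ) : C :=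
  f.eval₂ (algebraMap ℂ C) p

/-- the flavor parameters defined by `y ∈ Lie F` -/
def fl (y : Fin D.rk → C) : Fl D → C :=
  Sum.elim (fun a => ∑ j, D.ta a j * y j) fun p => ∑ j, D.tw p.1 p.2 j * y j

end

/-- `0/1`-valued cocharacters -/
def Min (l : B D → ℤ) : Prop := ∀ b, l b = 0 ∨ l b = 1

/-- `ν`-weight of a cocharacter -/
def wt (ν : D.I → ℤ) (l : B D → ℤ) : ℤ := ∑ b : B D, ν b.1 * l b

section
variable {K L : Type} [Field K] [Algebra ℂ K] [CommRing L] [Algebra K L]
  (x : B D → K) (y : Fin D.rk → K) (u : (B D → ℤ) → L) (ν : D.I → ℤ)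

/-- dressed monopole operator `∑_{σ ∈ W} σ (f · eul l / rts l · u^l)` -/
noncomputable def mono (l : B D → ℤ) (f : MvPolynomial (B D ⊕ Fin D.rk) ℂ) : L :=
  ∑ σ : W D, (val (Sum.elim (x ∘ pm D σ) y) f *
    wts D (x ∘ pm D σ) (fl D y) (fun χ c => χ ^ (-c).toNat) l /
      rts D (x ∘ pm D σ) (fun α c => α ^ c.toNat) l) • u (l ∘ pm D σ⁻¹)

/-- `R = H_{G × F}(pt)`: polynomials in `x, y` which are symmetric in each group of variables -/
def R : Set K := {z | ∃ f, ∀ σ, val (Sum.elim (x ∘ pm D σ) y) f = z}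

/-- the flavor-deformed Coulomb branch algebra in its abelianized description -/
noncomputable def coulomb : Subring L :=
  Subring.closure {a | (∃ r ∈ R D x y, a = algebraMap K L r) ∨
    ∃ l f, Min D l ∧ (a = mono D x y u l f ∨ a = mono D x y u (-l) f)}

/-- the ideal of `A_F` generated by the elements of nonzero weight -/
noncomputable def fixI : AddSubgroup L :=
  AddSubgroup.closure {c | ∃ a ∈ coulomb D x y u, ∃ b ∈ coulomb D x y u, ∃ m, m ≠ 0 ∧
    b ∈ Submodule.span K (u '' {l | wt D ν l = m}) ∧ c = a * b}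

end

/-- The set of values `ev g` of the `act`-invariant `g` in `C` for which `g · ∏ α (ħ + α)`, `ħ = h`, is
in the ideal of the classes of the loci of `T^*N` contracted by the cocharacters `l` with `ν·l < 0`. -/
def HP {C K : Type} [CommRing C] (X : B D → C) (t : Fl D → C) (h : C)
    (act : W D → C → C) (ev : C → K) (ν : D.I → ℤ) : Set K :=
  {z | ∃ g, (∀ σ, act σ g = g) ∧ g * disc D X (fun α => α * (h + α)) ∈
    cut D X t (fun χ c => if c < 0 then χ else if 0 < c then h - χ else 1) (fun l => wt D ν l < 0) ∧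
    ev g = z}

/-- flavor variables: arrows, framing vectors, `ħ`, coordinates on `Lie F` -/
abbrev Z : Type := Fl D ⊕ (Unit ⊕ Fin D.rk)

/-- the kernel of the Kirwan map, by the theorem of Hausel and Proudfoot -/
noncomputable def kerH {K : Type} [Field K] [Algebra ℂ K] (x : B D → K) (y : Fin D.rk → K) :
    (D.I → ℤ) → Set K :=
  let X : B D ⊕ Z D → MvPolynomial (B D ⊕ Z D) ℂ := MvPolynomial.X
  HP D (fun b => X (.inl b)) (fun a => X (.inr (.inl a))) (X (.inr (.inr (.inl ()))))
    (fun σ => val (Sum.elim (fun b => X (.inl (pm D σ b))) fun c => X (.inr c)))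
    (val (Sum.elim x (Sum.elim (fl D y) (Sum.elim 0 y))))

/-- In every commutative `ℂ`-algebra, the product of the roots is in the ideal generated by the
products of the weights `χ` with `⟨χ, l⟩ = ±1`, for the `l` with values in `{j, j + 1}`, not identically
`j`, and not identically `j + 1` if `j ≠ 0`. -/
def Empty (j : ℤ) : Prop :=
  ∀ (C : Type) [CommRing C] [Algebra ℂ C] (x : B D → C) (t : Fl D → C),
    disc D x id ∈ cut D x t (fun χ c => if c ^ 2 = 1 then χ else 1) fun l =>
      (∀ b, l b = j ∨ l b = j + 1) ∧ (∃ b, l b ≠ j) ∧ (j ≠ 0 → ∃ b, l b = j)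

/-- the data with another dimension vector -/
def sub (n : D.I → ℕ) : QData := {D with v := n}

/-- There is no decomposition `v = n₀ + n₁ + ⋯ + nₖ`, `k ≥ 1`, with `Empty (sub D n₀) 0` false (cuts of
the framed quiver) and `nⱼ ≠ 0`, `ν·nⱼ = 0`, `Empty (sub D nⱼ) 2` false (cuts of the quiver; the weights
of the framing are left out as `⟨χ, l⟩ ≤ -2`) for `j ≥ 1`. -/
def Reg (ν : D.I → ℤ) : Prop :=
  ∀ (n₀ : D.I → ℕ) (s : List (D.I → ℕ)), n₀ + s.sum = D.v → s ≠ [] →
    (∀ n ∈ s, n ≠ 0 ∧ ∑ i, ν i * n i = 0 ∧ ¬ Empty (sub D n) 2) → Empty (sub D n₀) 0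

end Vale.Agent.P291.Q
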