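import Vale.Agent.P291.T.QE
import Vale.Agent.P291.M.MainJ
import Vale.Agent.P291.M.CutW

set_option autoImplicit false
set_option linter.unusedSectionVars false

/-! Translation of the main theorem to the definitions of `T/QE.lean`. -/

namespace Vale.Agent.P291.E

open MvPolynomial

/-- the same data -/
@[reducible] def tG (D : QData) : Vale.Agent.P291.T.QData :=
  @Vale.Agent.P291.T.QData.mk D.I D.A D.fI D.dI D.fA D.src D.tgt D.v D.w D.rk D.ta D.tw

variable (D : QData)

section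
variable {K L : Type} [Field K] [Algebra ℂ K] [CommRing L] [Algebra K L]
  (x : B D → K) (y : Fin D.rk → K) (u : (B D → ℤ) → L) (ν : D.I → ℤ)

lemma eul_eq {C : Type} [CommRing C] (x : B D → C) (y : Fin D.rk → C) (l : B D → ℤ) :
    wts D x (fl D y) (fun χ c => χ ^ (-c).toNat) l =
      Vale.Agent.P291.G.eul (tG D) x y l := by
  unfold wts Vale.Agent.P291.G.eul
  simp only [neg_sub, neg_neg]
  rfl

lemma mono_eq (l : B D → ℤ) (f : MvPolynomial (B D ⊕ Fin D.rk) ℂ) :
    mono D x y u l f = Vale.Agent.P291.G.mono (tG D) x y u l f := by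
  unfold mono Vale.Agent.P291.G.mono
  refine Finset.sum_congr rfl fun σ _ => ?_
  rw [eul_eq]
  rfl

lemma R_eq : R D x y = Vale.Agent.P291.G.R (tG D) x y := rfl

lemma coulomb_eq : coulomb D x y u = Vale.Agent.P291.G.coulomb (tG D) x y u := by
  unfold coulomb Vale.Agent.P291.G.coulomb
  simp only [mono_eq]
  rfl

lemma fixI_eq : fixI D x y u ν = Vale.Agent.P291.G.fixI (tG D) x y u ν := by
  unfold fixI Vale.Agent.P291.G.fixI
  rw [coulomb_eq]
  rfl

/-- the polynomial ring with all flavor variables -/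
abbrev PT : Type := MvPolynomial (B D ⊕ Z D) ℂ

noncomputable def xT (z : B D ⊕ Z D) : PT D := MvPolynomial.X z
noncomputable def hT : PT D := MvPolynomial.X (.inr (.inr (.inl ())))

lemma disc_eq : rts D (fun b => xT D (.inl b))
    (fun α c => if c = 0 then 1 else α * (hT D + α)) (fun b => (b.2 : ℕ)) =
      Vale.Agent.P291.G.disc (tG D) := by
  unfold rts Vale.Agent.P291.G.disc
  refine Finset.prod_congr rfl fun i _ => Finset.prod_congr rfl fun r _ => ?_
  beta_reduce
  rw [← Finset.mul_prod_erase Finset.univ _ (Finset.mem_univ r), if_pos (sub_self _), one_mul]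
  refine Finset.prod_congr rfl fun s hs => ?_
  rw [if_neg]
  · rw [add_comm (hT D)]
    rfl
  · intro h0
    apply Finset.ne_of_mem_erase hs
    apply Fin.ext
    have := sub_eq_zero.1 h0
    exact_mod_cast this.symm

lemma disc0_eq : rts D (fun b => xT D (.inl b))
    (fun α c => if c = 0 then 1 else α) (fun b => (b.2 : ℕ)) =
      Vale.Agent.P291.H.M.ddT (tG D) (Vale.Agent.P291.H.ZZ (tG D)) := by
  rw [Vale.Agent.P291.H.M.ddT_eq]
  rfl

lemma act_eq (σ : W D) (g : PT D) :
    val (Sum.elim (fun b => (MvPolynomial.X (.inl (pm D σ b)) : PT D))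
      fun c => MvPolynomial.X (.inr c)) g =
      rename (Sum.map (Vale.Agent.P291.G.perm (tG D) σ) id) g := by
  have e1 : (Sum.elim (fun b => (MvPolynomial.X (.inl (pm D σ b)) : PT D))
      fun c => MvPolynomial.X (.inr c)) =
      (MvPolynomial.X : (B D ⊕ Z D) → PT D) ∘
        Sum.map (Vale.Agent.P291.G.perm (tG D) σ) id := by
    funext c
    cases c <;> rfl
  rw [e1]
  have e2 : (aeval ((MvPolynomial.X : (B D ⊕ Z D) → PT D) ∘
      Sum.map (Vale.Agent.P291.G.perm (tG D) σ) id) : PT D →ₐ[ℂ] PT D) =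
      rename (Sum.map (Vale.Agent.P291.G.perm (tG D) σ) id) := by
    apply MvPolynomial.algHom_ext
    intro b
    rw [aeval_X, rename_X]
    rfl
  exact DFunLike.congr_fun e2 g

lemma spc_eq (g : PT D) :
    val (Sum.elim x (Sum.elim (fl D y) (Sum.elim 0 y))) g =
      Vale.Agent.P291.G.spc (tG D) x y g := rfl

lemma ker2_def : (kerX D x y ν).2 = {z | ∃ g : PT D,
    (∀ σ, val (Sum.elim (fun b => (MvPolynomial.X (.inl (pm D σ b)) : PT D))
      fun c => MvPolynomial.X (.inr c)) g = g) ∧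
    g * rts D (fun b => xT D (.inl b)) (fun α c => if c = 0 then 1 else α * (hT D + α))
      (fun b => (b.2 : ℕ)) ∈
      Ideal.span {p | ∃ l, wt D ν l < 0 ∧ p = wts D (fun b => xT D (.inl b))
        (fun a => xT D (.inr (.inl a)))
        (fun χ c => if c < 0 then χ else if 0 < c then hT D - χ else 1) l} ∧
    val (Sum.elim x (Sum.elim (fl D y) (Sum.elim 0 y))) g = z} := rfl

lemma ker1_def : (kerX D x y ν).1 = {z | ∃ g : PT D,
    (∀ σ, val (Sum.elim (fun b => (MvPolynomial.X (.inl (pm D σ b)) : PT D))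
      fun c => MvPolynomial.X (.inr c)) g = g) ∧
    g * rts D (fun b => xT D (.inl b)) (fun α c => if c = 0 then 1 else α)
      (fun b => (b.2 : ℕ)) ∈
      Ideal.span {p | ∃ l, l ≠ 0 ∧ p = wts D (fun b => xT D (.inl b))
        (fun a => xT D (.inr (.inl a))) (fun χ c => if c = 0 then 1 else χ) l} ∧
    val (Sum.elim x (Sum.elim (fl D y) (Sum.elim 0 y))) g = z} := rfl

lemma kerH_sub : Vale.Agent.P291.G.kerH (tG D) x y ν ⊆ (kerX D x y ν).2 := by
  rintro z ⟨g, h1, h2, h3⟩
  rw [ker2_def]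
  refine ⟨g, fun σ => ?_, ?_, ?_⟩
  · rw [act_eq]
    exact h1 σ
  · rw [disc_eq]
    exact h2
  · rw [spc_eq]
    exact h3

lemma kerK_eq : (kerX D x y ν).1 = Vale.Agent.P291.H.M.kerJ (tG D) x y := by
  have hI : Vale.Agent.P291.H.M.cutI (Vale.Agent.P291.H.M.wX (tG D)) =
      Ideal.span {p | ∃ l : B D → ℤ, l ≠ 0 ∧ p = wts D (fun b => xT D (.inl b))
        (fun a => xT D (.inr (.inl a))) (fun χ c => if c = 0 then 1 else χ) l} :=
    Vale.Agent.P291.H.M.cutI_eq (tG D)
  rw [ker1_def]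
  ext z
  constructor
  · rintro ⟨g, h1, h2, h3⟩
    refine ⟨g, fun σ => ?_, ?_, ?_⟩
    · have := h1 σ
      rw [act_eq] at this
      exact this
    · rw [hI, ← disc0_eq]
      exact h2
    · exact h3
  · rintro ⟨g, h1, h2, h3⟩
    refine ⟨g, fun σ => ?_, ?_, ?_⟩
    · rw [act_eq]
      exact h1 σ
    · rw [hI, ← disc0_eq] at h2
      exact h2
    · exact h3

/-- the main theorem in the definitions of `T/QE.lean` -/
theorem main (hxy : AlgebraicIndependent ℂ (Sum.elim x y))
    (hu : ∀ l l', u (l + l') = u l * u l') (hi : LinearIndependent K u)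
    (hs : Submodule.span K (Set.range u) = ⊤) (hν : ∀ l, Min D l → l ≠ 0 → wt D ν l ≠ 0) :
    (∀ a ∈ coulomb D x y u, ∃ r ∈ R D x y, a - algebraMap K L r ∈ fixI D x y u ν) ∧
    (∀ r ∈ R D x y, algebraMap K L r ∈ fixI D x y u ν ↔ r ∈ (kerX D x y ν).1) ∧
    ∀ r ∈ R D x y, algebraMap K L r ∈ fixI D x y u ν → r ∈ (kerX D x y ν).2 := by
  have hb : ∀ l, Module.Basis.mk hi hs.ge l = u l := fun l => Module.Basis.mk_apply hi hs.ge l
  have hb' : (Module.Basis.mk hi hs.ge : (B D → ℤ) → L) = u := funext hb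
  have hu' : ∀ l l', Module.Basis.mk hi hs.ge (l + l') =
      Module.Basis.mk hi hs.ge l * Module.Basis.mk hi hs.ge l' :=
    fun l l' => by rw [hb, hb, hb]; exact hu l l'
  have h := Vale.Agent.P291.H.main (tG D) K L x y hxy (Module.Basis.mk hi hs.ge) hu' ν hν
  have h2 := fun {r : K} (hr : r ∈ Vale.Agent.P291.G.R (tG D) x y) =>
    Vale.Agent.P291.H.M.ker_iff (tG D) x y (Module.Basis.mk hi hs.ge) hxy hu' ν hν hr
  have e : ((Module.Basis.mk hi hs.ge : Module.Basis (B D → ℤ) K L) :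
      (Vale.Agent.P291.G.B (tG D) → ℤ) → L) = u := hb'
  rw [e] at h
  rw [e] at h2
  rw [coulomb_eq, fixI_eq, R_eq, kerK_eq D x y ν]
  exact ⟨h.1, fun r hr => h2 hr, fun r hr h' => kerH_sub D x y ν (h.2.1 r hr h').1⟩

end

end Vale.Agent.P291.E
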