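import Mathlib
import Vale.Agent.P291.T.QD

set_option autoImplicit false

namespace Vale.Agent.P291.T

variable (D : QData)

section
variable {C : Type} [CommRing C] (x : B D → C) (c : B D → ℕ) (j : ℕ)

/-- product of the differences of the variables of the class `j` of the colouring `c` -/
def disc : C :=
  ∏ i, ∏ r, ∏ s, if r ≠ s ∧ c ⟨i, r⟩ = j ∧ c ⟨i, s⟩ = j then x ⟨i, r⟩ - x ⟨i, s⟩ else 1

/-- The ideal generated, for all ways to cut the class `j` of the colouring `c` into a nonempty part
`A` and the rest, by the product of the weights of `N` between the two parts. The class `0` also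
contains the framing, which is not in `A`. -/
def cut (t : D.A ⊕ (Σ i : D.I, Fin (D.w i)) → C) : Ideal C :=
  Ideal.span {p | ∃ A : Finset (B D), A.Nonempty ∧ (∀ b ∈ A, c b = j) ∧
    (j = 0 ∨ ∃ b, b ∉ A ∧ c b = j) ∧
    p = wts D x t (fun χ m => if m = 1 ∨ m = -1 then χ else 1)
      fun b => 3 * c b + if b ∈ A then 1 else 0}

end

/-- regularity of the character `ν`: a colouring of the basis vectors such that the classes `j ≠ 0`
have `ν`-weight zero, and such that for no class the product of differences is in the ideal of the
cuts, has only the class `0` -/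
def Regular (ν : D.I → ℤ) : Prop :=
  ∀ c : B D → ℕ, (∀ j, j ≠ 0 → ∑ b, (if c b = j then ν b.1 else 0) = 0) →
    (∀ j, disc D (fun b => (MvPolynomial.X (.inl b) : MvPolynomial (B D ⊕ Z D) ℂ)) c j ∉
      cut D (fun b => MvPolynomial.X (.inl b)) c j fun a => MvPolynomial.X (.inr (.inl a))) →
    ∀ b, c b = 0

end Vale.Agent.P291.T
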