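import Vale.Agent.P291.M.CutW
import Vale.Agent.P291.N.Ind

set_option autoImplicit false
set_option linter.unusedSectionVars false

/-! The cut ideals in terms of cocharacters with two values; surjectivity of `φ_C`. -/

namespace Vale.Agent.P291.H.N

open MvPolynomial Vale.Agent.P291.G Vale.Agent.P291.H.M

variable (D : QData)

/-- the arrow part of the product of the weights which are nonzero on `l` -/
noncomputable def aw (l : B D → ℤ) : S D (ZZ D) :=
  ∏ a, ∏ r, ∏ s, if (l ⟨D.tgt a, s⟩ - l ⟨D.src a, r⟩) ^ 2 = 1 then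
      xq D ⟨D.tgt a, s⟩ - xq D ⟨D.src a, r⟩ + tv D a else 1

/-- the framing part -/
noncomputable def fw (l : B D → ℤ) : S D (ZZ D) :=
  ∏ i, ∏ r, ∏ k, if (-l ⟨i, r⟩) ^ 2 = 1 then zv D i k - xq D ⟨i, r⟩ else 1

lemma two_val {j a b : ℤ} (ha : a = j ∨ a = j + 1) (hb : b = j ∨ b = j + 1) :
    (a - b) ^ 2 = 1 ↔ a ≠ b := by
  rcases ha with rfl | rfl <;> rcases hb with rfl | rfl
  · simp
  · constructor
    · intro _ h
      omega
    · intro _
      have : a - (a + 1) = -1 := by ring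
      rw [this]
      norm_num
  · constructor
    · intro _ h
      omega
    · intro _
      have : b + 1 - b = 1 := by ring
      rw [this]
      norm_num
  · simp

lemma aw_eq {j : ℤ} (l : B D → ℤ) (hl : ∀ b, l b = j ∨ l b = j + 1) : aw D l =
    ∏ p : B D, ∏ q : B D, if l q = l p then 1 else hq D p q 0 := by
  have h := BM_prod_arrows D (fun a p q => if l q = l p then 1 else
    (xq D q - xq D p + tv D a))
  have h1 : aw D l =
      ∏ a, ∏ r : Fin (D.v (D.src a)), ∏ s : Fin (D.v (D.tgt a)),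
        if l ⟨D.tgt a, s⟩ = l ⟨D.src a, r⟩ then 1 else
          xq D ⟨D.tgt a, s⟩ - xq D ⟨D.src a, r⟩ + tv D a := by
    refine Finset.prod_congr rfl fun a _ => Finset.prod_congr rfl fun r _ =>
      Finset.prod_congr rfl fun s _ => ?_
    by_cases h2 : l ⟨D.tgt a, s⟩ = l ⟨D.src a, r⟩
    · rw [if_pos h2, if_neg fun h3 => (two_val (hl _) (hl _)).1 h3 h2]
    · rw [if_neg h2, if_pos ((two_val (hl _) (hl _)).2 h2)]
  rw [h1, ← h]
  refine Finset.prod_congr rfl fun p _ => Finset.prod_congr rfl fun q _ => ?_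
  by_cases hl : l q = l p
  · rw [if_pos hl]
    exact Finset.prod_eq_one fun a _ => if_pos hl
  · rw [if_neg hl, hq]
    refine Finset.prod_congr rfl fun a _ => ?_
    rw [if_neg hl, add_zero]

lemma aw_ind {j : ℤ} (l : B D → ℤ) (hl : ∀ b, l b = j ∨ l b = j + 1) (N : Finset (B D))
    (hN : ∀ b, b ∈ N ↔ l b = j + 1) : aw D l = e (wX D) N * e (wX D) Nᶜ := by
  have hj : j ≠ j + 1 := by omega
  rw [aw_eq D l hl, e, e, compl_compl, ← Finset.prod_mul_prod_compl N]
  congr 1
  · refine Finset.prod_congr rfl fun p hp => ?_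
    rw [← Finset.prod_mul_prod_compl N]
    rw [Finset.prod_eq_one fun q hq => ?_, one_mul]
    · refine Finset.prod_congr rfl fun q hq => ?_
      rw [Finset.mem_compl] at hq
      rw [if_neg]
      · rfl
      · rw [(hN p).1 hp]
        exact fun h => hq ((hN q).2 h)
    · rw [if_pos]
      rw [(hN p).1 hp, (hN q).1 hq]
  · refine Finset.prod_congr rfl fun p hp => ?_
    rw [Finset.mem_compl] at hp
    have hp' : l p = j := (hl p).resolve_right fun h => hp ((hN p).2 h)
    rw [← Finset.prod_mul_prod_compl N]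
    rw [Finset.prod_eq_one (s := Nᶜ) fun q hq => ?_, mul_one]
    · refine Finset.prod_congr rfl fun q hq => ?_
      rw [if_neg]
      · rfl
      · rw [hp', (hN q).1 hq]
        exact hj.symm
    · rw [if_pos]
      rw [Finset.mem_compl] at hq
      rw [hp', (hl q).resolve_right fun h => hq ((hN q).2 h)]

lemma fw_two (l : B D → ℤ) (hl : ∀ b, l b = 2 ∨ l b = 2 + 1) : fw D l = 1 := by
  refine Finset.prod_eq_one fun i _ => Finset.prod_eq_one fun r _ => Finset.prod_eq_one fun k _ => ?_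
  rw [if_neg]
  rcases hl ⟨i, r⟩ with h | h <;> rw [h] <;> norm_num

lemma fw_zero (l : B D → ℤ) (hl : ∀ b, l b = 0 ∨ l b = 0 + 1) (N : Finset (B D))
    (hN : ∀ b, b ∈ N ↔ l b = 0 + 1) : fw D l = zs (wX D) N := by
  have h := cw_ind D N
  have h1 : ∀ b, ind D N b = l b := by
    intro b
    rw [ind]
    split_ifs with h2
    · rw [(hN b).1 h2, zero_add]
    · exact ((hl b).resolve_right fun h => h2 ((hN b).2 h)).symm
  have h2 : fw D l = ∏ b : B D, if l b = 0 then 1 else zq D b 0 := by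
    rw [fw, Fintype.prod_sigma]
    refine Finset.prod_congr rfl fun i _ => Finset.prod_congr rfl fun r _ => ?_
    by_cases hl' : l ⟨i, r⟩ = 0
    · rw [if_pos hl']
      refine Finset.prod_eq_one fun k _ => if_neg ?_
      rw [hl']
      norm_num
    · rw [if_neg hl', zq]
      refine Finset.prod_congr rfl fun k _ => ?_
      have h3 : l ⟨i, r⟩ = 1 := by
        have := (hl ⟨i, r⟩).resolve_left hl'
        rwa [zero_add] at this
      rw [if_pos (by rw [h3]; norm_num), add_zero]
  rw [h2, zs, ← Finset.prod_mul_prod_compl N]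
  rw [Finset.prod_eq_one (s := Nᶜ) fun b hb => ?_, mul_one]
  · refine Finset.prod_congr rfl fun b hb => ?_
    rw [if_neg]
    · rfl
    · rw [(hN b).1 hb]
      norm_num
  · rw [Finset.mem_compl] at hb
    rw [if_pos]
    exact (hl b).resolve_right fun h => hb ((hN b).2 h)

open Classical in
lemma mem_cutU (l : B D → ℤ) (hl : ∀ b, l b = 2 ∨ l b = 2 + 1) (h1 : ∃ b, l b ≠ 2)
    (h2 : ∃ b, l b = 2) : aw D l * fw D l ∈ cutU (wX D) := by
  have hN : ∀ b, b ∈ (Finset.univ.filter fun b => l b = 2 + 1) ↔ l b = 2 + 1 := by simp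
  rw [fw_two D l hl, mul_one, aw_ind D l hl _ hN]
  refine Ideal.subset_span ⟨_, ?_, ?_, rfl⟩
  · obtain ⟨b, hb⟩ := h1
    exact ⟨b, (hN b).2 ((hl b).resolve_left hb)⟩
  · obtain ⟨b, hb⟩ := h2
    intro h
    have h3 : b ∈ (Finset.univ.filter fun b => l b = 2 + 1) := by
      rw [h]
      exact Finset.mem_univ b
    have := (hN b).1 h3
    omega

open Classical in
lemma mem_cutF (l : B D → ℤ) (hl : ∀ b, l b = 0 ∨ l b = 0 + 1) (h1 : ∃ b, l b ≠ 0) :
    aw D l * fw D l ∈ cutI (wX D) := by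
  have hN : ∀ b, b ∈ (Finset.univ.filter fun b => l b = 0 + 1) ↔ l b = 0 + 1 := by simp
  rw [fw_zero D l hl _ hN, aw_ind D l hl _ hN]
  refine Ideal.subset_span ⟨_, ?_, rfl⟩
  obtain ⟨b, hb⟩ := h1
  exact ⟨b, (hN b).2 ((hl b).resolve_left hb)⟩

lemma Sm_list (ν : D.I → ℤ) {m : D.I → ℕ} (h : Sm D ν m) :
    ∃ s : List (D.I → ℕ), s.sum = m ∧ (m ≠ 0 → s ≠ []) ∧
      ∀ n ∈ s, n ≠ 0 ∧ ∑ i, ν i * (n i : ℤ) = 0 ∧ Root D n := by
  induction h with
  | zero => exact ⟨[], rfl, fun h => absurd rfl h, fun n hn => absurd hn (List.not_mem_nil)⟩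
  | add n k _ h2 h3 h4 ih =>
    obtain ⟨s, h5, -, h7⟩ := ih
    refine ⟨k :: s, ?_, fun _ => List.cons_ne_nil _ _, ?_⟩
    · rw [List.sum_cons, h5, add_comm]
    · intro a ha
      rcases List.mem_cons.1 ha with rfl | ha
      · exact ⟨h3, h4, h2⟩
      · exact h7 a ha

section
variable {K L : Type} [Field K] [Algebra ℂ K] [CommRing L] [Algebra K L]
  (x : B D → K) (y : Fin D.rk → K) (u : Module.Basis (B D → ℤ) K L)

variable (hu : ∀ l l', u (l + l') = u l * u l') (ν : D.I → ℤ)

include hu in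
/-- surjectivity of `φ_C` -/
theorem surj_of (hν : ∀ l, Min D l → l ≠ 0 → ∀ f,
      mono D x y u l f ∈ fixI D x y u ν ∧ mono D x y u (-l) f ∈ fixI D x y u ν)
    {a : L} (ha : a ∈ coulomb D x y u) :
    ∃ r ∈ R D x y, a - algebraMap K L r ∈ fixI D x y u ν := by
  induction ha using Subring.closure_induction with
  | mem a ha =>
    rcases ha with ⟨r, hr, rfl⟩ | ⟨l, f, hl, h⟩
    · exact ⟨r, hr, by rw [sub_self]; exact AddSubgroup.zero_mem _⟩
    · by_cases hl0 : l = 0
      · subst hl0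
        refine ⟨_, cls_zero_mem D x y f, ?_⟩
        have h1 : a = algebraMap K L (cls D x y 0 f) := by
          rcases h with rfl | rfl
          · exact mono_zero D x y u hu f
          · rw [neg_zero]; exact mono_zero D x y u hu f
        rw [h1, sub_self]
        exact AddSubgroup.zero_mem _
      · refine ⟨0, R_zero D x y, ?_⟩
        rw [map_zero, sub_zero]
        rcases h with rfl | rfl
        · exact (hν l hl hl0 f).1
        · exact (hν l hl hl0 f).2
  | zero => exact ⟨0, R_zero D x y, by rw [map_zero, sub_zero]; exact AddSubgroup.zero_mem _⟩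
  | one => exact ⟨1, R_one D x y, by rw [map_one, sub_self]; exact AddSubgroup.zero_mem _⟩
  | add a b _ _ ha hb =>
    obtain ⟨r, hr, hr'⟩ := ha
    obtain ⟨s, hs, hs'⟩ := hb
    refine ⟨r + s, R_add D x y hr hs, ?_⟩
    rw [map_add, add_sub_add_comm]
    exact AddSubgroup.add_mem _ hr' hs'
  | neg a _ ha =>
    obtain ⟨r, hr, hr'⟩ := ha
    refine ⟨-r, R_neg D x y hr, ?_⟩
    have := AddSubgroup.neg_mem _ hr'
    rw [map_neg]
    rwa [neg_sub, ← neg_sub_neg] at this
  | mul a b ha' hb' ha hb =>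
    obtain ⟨r, hr, hr'⟩ := ha
    obtain ⟨s, hs, hs'⟩ := hb
    refine ⟨r * s, R_mul D x y hr hs, ?_⟩
    have h1 : a * b - algebraMap K L (r * s) =
        a * (b - algebraMap K L s) + algebraMap K L s * (a - algebraMap K L r) := by
      rw [map_mul]; ring
    rw [h1]
    exact AddSubgroup.add_mem _ (fixI_mul D x y u ν ha' hs')
      (fixI_mul D x y u ν (R_mem_coulomb D x y u hs) hr')

end

end Vale.Agent.P291.H.N
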