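import Vale.Agent.P291.T.QF
import Vale.Agent.P291.T.CutF
import Vale.Agent.P291.M.AllNu
import Vale.Agent.P291.K.Final

set_option autoImplicit false
set_option linter.unusedSectionVars false

/-! Translation of the main theorem to the definitions of `T/QF.lean`. -/

namespace Vale.Agent.P291.Q

open MvPolynomial

/-- the same data -/
@[reducible] def tG (D : QData) : Vale.Agent.P291.T.QData :=
  @Vale.Agent.P291.T.QData.mk D.I D.A D.fI D.dI D.fA D.src D.tgt D.v D.w D.rk D.ta D.tw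

variable (D : QData)

section
variable {K L : Type} [Field K] [Algebra ℂ K] [CommRing L] [Algebra K L]
  (x : B D → K) (y : Fin D.rk → K) (u : (B D → ℤ) → L) (ν : D.I → ℤ)

lemma eul_eq {C : Type} [CommRing C] (x : B D → C) (y : Fin D.rk → C) (l : B D → ℤ) :
    wts D x (fl D y) (fun χ c => χ ^ (-c).toNat) l =
      Vale.Agent.P291.G.eul (tG D) x y l := by
  unfold wts Vale.Agent.P291.G.eul
  simp only [neg_sub, neg_neg]
  rfl

lemma mono_eq (l : B D → ℤ) (f : MvPolynomial (B D ⊕ Fin D.rk) ℂ) :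
    mono D x y u l f = Vale.Agent.P291.G.mono (tG D) x y u l f := by
  unfold mono Vale.Agent.P291.G.mono
  refine Finset.sum_congr rfl fun σ _ => ?_
  rw [eul_eq]
  rfl

lemma R_eq : R D x y = Vale.Agent.P291.G.R (tG D) x y := rfl

lemma coulomb_eq : coulomb D x y u = Vale.Agent.P291.G.coulomb (tG D) x y u := by
  unfold coulomb Vale.Agent.P291.G.coulomb
  simp only [mono_eq]
  rfl

lemma fixI_eq : fixI D x y u ν = Vale.Agent.P291.G.fixI (tG D) x y u ν := by
  unfold fixI Vale.Agent.P291.G.fixI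
  rw [coulomb_eq]
  rfl

/-- the polynomial ring with all flavor variables -/
abbrev PT : Type := MvPolynomial (B D ⊕ Z D) ℂ

noncomputable def xT (z : B D ⊕ Z D) : PT D := MvPolynomial.X z
noncomputable def hT : PT D := MvPolynomial.X (.inr (.inr (.inl ())))

lemma disc_eq : disc D (fun b => xT D (.inl b)) (fun α => α * (hT D + α)) =
      Vale.Agent.P291.G.disc (tG D) := by
  unfold disc rts Vale.Agent.P291.G.disc
  refine Finset.prod_congr rfl fun i _ => Finset.prod_congr rfl fun r _ => ?_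
  beta_reduce
  rw [← Finset.mul_prod_erase Finset.univ _ (Finset.mem_univ r), if_pos (sub_self _), one_mul]
  refine Finset.prod_congr rfl fun s hs => ?_
  rw [if_neg]
  · rw [add_comm (hT D)]
    rfl
  · intro h0
    apply Finset.ne_of_mem_erase hs
    apply Fin.ext
    have := sub_eq_zero.1 h0
    exact_mod_cast this.symm

lemma disc0_eq : disc D (fun b => xT D (.inl b)) id =
      Vale.Agent.P291.H.M.ddT (tG D) (Vale.Agent.P291.H.ZZ (tG D)) := by
  rw [Vale.Agent.P291.H.M.ddT_eq]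
  rfl

lemma act_eq (σ : W D) (g : PT D) :
    val (Sum.elim (fun b => (MvPolynomial.X (.inl (pm D σ b)) : PT D))
      fun c => MvPolynomial.X (.inr c)) g =
      rename (Sum.map (Vale.Agent.P291.G.perm (tG D) σ) id) g := by
  have e1 : (Sum.elim (fun b => (MvPolynomial.X (.inl (pm D σ b)) : PT D))
      fun c => MvPolynomial.X (.inr c)) =
      (MvPolynomial.X : (B D ⊕ Z D) → PT D) ∘
        Sum.map (Vale.Agent.P291.G.perm (tG D) σ) id := by
    funext c
    cases c <;> rfl
  rw [e1]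
  have e2 : (aeval ((MvPolynomial.X : (B D ⊕ Z D) → PT D) ∘
      Sum.map (Vale.Agent.P291.G.perm (tG D) σ) id) : PT D →ₐ[ℂ] PT D) =
      rename (Sum.map (Vale.Agent.P291.G.perm (tG D) σ) id) := by
    apply MvPolynomial.algHom_ext
    intro b
    rw [aeval_X, rename_X]
    rfl
  exact DFunLike.congr_fun e2 g

lemma kerH_def : kerH D x y ν = {z | ∃ g : PT D,
    (∀ σ, val (Sum.elim (fun b => (MvPolynomial.X (.inl (pm D σ b)) : PT D))
      fun c => MvPolynomial.X (.inr c)) g = g) ∧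
    g * disc D (fun b => xT D (.inl b)) (fun α => α * (hT D + α)) ∈
      cut D (fun b => xT D (.inl b)) (fun a => xT D (.inr (.inl a)))
        (fun χ c => if c < 0 then χ else if 0 < c then hT D - χ else 1) (fun l => wt D ν l < 0) ∧
    val (Sum.elim x (Sum.elim (fl D y) (Sum.elim 0 y))) g = z} := rfl

lemma kerH_eq : kerH D x y ν = Vale.Agent.P291.G.kerH (tG D) x y ν := by
  rw [kerH_def]
  ext z
  constructor
  · rintro ⟨g, h1, h2, h3⟩
    refine ⟨g, fun σ => ?_, ?_, ?_⟩
    · have := h1 σ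
      rw [act_eq] at this
      exact this
    · rw [disc_eq] at h2
      exact h2
    · exact h3
  · rintro ⟨g, h1, h2, h3⟩
    refine ⟨g, fun σ => ?_, ?_, ?_⟩
    · rw [act_eq]
      exact h1 σ
    · rw [disc_eq]
      exact h2
    · exact h3

end

lemma not_root (h : Empty D 2) : Vale.Agent.P291.H.M.ddT (tG D) (Vale.Agent.P291.H.ZZ (tG D)) ∈
    Vale.Agent.P291.H.N.cutU (Vale.Agent.P291.H.M.wX (tG D)) := by
  have h1 := h (PT D) (fun b => xT D (.inl b)) (fun a => xT D (.inr (.inl a)))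
  rw [disc0_eq] at h1
  refine (Ideal.span_le.2 ?_ : cut D _ _ _ _ ≤ _) h1
  rintro p ⟨l, ⟨h2, h3, h4⟩, rfl⟩
  exact Vale.Agent.P291.H.N.mem_cutU (tG D) l h2 h3 (h4 (by norm_num))

lemma not_fr (h : Empty D 0) : Vale.Agent.P291.H.M.ddT (tG D) (Vale.Agent.P291.H.ZZ (tG D)) ∈
    Vale.Agent.P291.H.M.cutI (Vale.Agent.P291.H.M.wX (tG D)) := by
  have h1 := h (PT D) (fun b => xT D (.inl b)) (fun a => xT D (.inr (.inl a)))
  rw [disc0_eq] at h1
  refine (Ideal.span_le.2 ?_ : cut D _ _ _ _ ≤ _) h1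
  rintro p ⟨l, ⟨h2, h3, h4⟩, rfl⟩
  exact Vale.Agent.P291.H.N.mem_cutF (tG D) l h2 h3

lemma HR_of_Reg {ν : D.I → ℤ} (h : Reg D ν) : Vale.Agent.P291.H.N.HR (tG D) ν := by
  intro n₀ m h1 h2 h3
  obtain ⟨s, h4, h5, h6⟩ := Vale.Agent.P291.H.N.Sm_list (tG D) ν h2
  by_contra hm
  refine h1 (not_fr (sub D n₀) (h n₀ s ?_ (h5 hm) fun n hn => ?_))
  · rw [h4]
    exact h3
  · obtain ⟨h7, h8, h9⟩ := h6 n hn
    exact ⟨h7, h8, fun h => h9 (not_root (sub D n) h)⟩

section
variable {K L : Type} [Field K] [Algebra ℂ K] [CommRing L] [Algebra K L]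
  (x : B D → K) (y : Fin D.rk → K) (u : (B D → ℤ) → L) (ν : D.I → ℤ)

open Classical in
/-- the main theorem in the definitions of `T/QF.lean` -/
theorem main (hxy : AlgebraicIndependent ℂ (Sum.elim x y))
    (hu : ∀ l l', u (l + l') = u l * u l') (hi : LinearIndependent K u)
    (hs : Submodule.span K (Set.range u) = ⊤) (hν : Reg D ν) :
    (∀ a ∈ coulomb D x y u, ∃ r ∈ R D x y, a - algebraMap K L r ∈ fixI D x y u ν) ∧
    ∀ r ∈ R D x y, algebraMap K L r ∈ fixI D x y u ν ↔ r ∈ kerH D x y 1 := by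
  have hb : ∀ l, Module.Basis.mk hi hs.ge l = u l := fun l => Module.Basis.mk_apply hi hs.ge l
  have hb' : (Module.Basis.mk hi hs.ge : (B D → ℤ) → L) = u := funext hb
  have hu' : ∀ l l', Module.Basis.mk hi hs.ge (l + l') =
      Module.Basis.mk hi hs.ge l * Module.Basis.mk hi hs.ge l' :=
    fun l l' => by rw [hb, hb, hb]; exact hu l l'
  have hm := fun {A : Finset (B D)} (hA : A.Nonempty) f =>
    Vale.Agent.P291.H.N.all_mem (tG D) ν x y (Module.Basis.mk hi hs.ge) hxy hu' (HR_of_Reg D hν)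
      (A := A) hA f
  have hsj := fun {a : L} ha => Vale.Agent.P291.H.N.surj_of (tG D) x y (Module.Basis.mk hi hs.ge)
    hu' ν (fun l hl h0 f => by
      have h1 : l = Vale.Agent.P291.H.ind (tG D) (Finset.univ.filter fun b => l b = 1) := by
        funext b
        rw [Vale.Agent.P291.H.ind]
        rcases hl b with h2 | h2
        · rw [if_neg, h2]
          simp [h2]
        · rw [if_pos, h2]
          simp [h2]
      rw [h1]
      refine hm ?_ f
      by_contra h3
      rw [Finset.not_nonempty_iff_eq_empty] at h3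
      apply h0
      rw [h1, h3]
      rfl) (a := a) ha
  have h2 := fun {r : K} (hr : r ∈ Vale.Agent.P291.G.R (tG D) x y) =>
    Vale.Agent.P291.H.M.ker_iff_of_surj (tG D) x y (Module.Basis.mk hi hs.ge) hu' hxy ν
      (fun a ha => hsj ha) hr
  have h3 := Vale.Agent.P291.H.main (tG D) K L x y hxy (Module.Basis.mk hi hs.ge) hu' (fun _ => 1)
    (Vale.Agent.P291.H.M.wt_one_ne (tG D))
  have h4 := fun {r : K} (hr : r ∈ Vale.Agent.P291.G.R (tG D) x y) =>
    Vale.Agent.P291.H.M.ker_iff (tG D) x y (Module.Basis.mk hi hs.ge) hxy hu' (fun _ => 1)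
      (Vale.Agent.P291.H.M.wt_one_ne (tG D)) hr
  have h5 := Vale.Agent.P291.K.kerH_le_kerJ (tG D) x y (fun _ => 1) (Or.inl fun _ => one_pos)
  have e : ((Module.Basis.mk hi hs.ge : Module.Basis (B D → ℤ) K L) :
      (Vale.Agent.P291.G.B (tG D) → ℤ) → L) = u := hb'
  rw [e] at hsj h2 h3 h4
  rw [coulomb_eq, fixI_eq, R_eq, kerH_eq D x y 1]
  refine ⟨fun a ha => hsj ha, fun r hr => ⟨fun h => ?_, fun h => (h2 hr).2 (h5 h)⟩⟩
  exact (h3.2.1 r hr ((h4 hr).2 ((h2 hr).1 h))).1

end

end Vale.Agent.P291.Q
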