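import Vale.Agent.P291.T.BridgeF

set_option autoImplicit false
set_option linter.unusedSectionVars false

/-! The version for generic `ν`. -/

namespace Vale.Agent.P291.Q

open MvPolynomial

variable (D : QData)

lemma wt_ne_of_sign {ν : D.I → ℤ} (hν : (∀ i, 0 < ν i) ∨ ∀ i, ν i < 0) (l : B D → ℤ)
    (hl : Min D l) (h0 : l ≠ 0) : wt D ν l ≠ 0 := by
  obtain ⟨b, hb⟩ := Function.ne_iff.1 h0
  have h1 : l b = 1 := (hl b).resolve_left hb
  rcases hν with hν | hν
  · have h2 : 0 < wt D ν l := by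
      rw [wt]
      refine Finset.sum_pos' (fun c _ => ?_) ⟨b, Finset.mem_univ b, ?_⟩
      · rcases hl c with h | h <;> rw [h]
        · rw [mul_zero]
        · rw [mul_one]
          exact (hν c.1).le
      · rw [h1, mul_one]
        exact hν b.1
    exact h2.ne'
  · have h2 : 0 < -wt D ν l := by
      rw [wt, ← Finset.sum_neg_distrib]
      refine Finset.sum_pos' (fun c _ => ?_) ⟨b, Finset.mem_univ b, ?_⟩
      · rcases hl c with h | h <;> rw [h]
        · rw [mul_zero, neg_zero]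
        · rw [mul_one]
          exact (neg_pos.2 (hν c.1)).le
      · rw [h1, mul_one]
        exact neg_pos.2 (hν b.1)
    intro h3
    rw [h3, neg_zero] at h2
    exact lt_irrefl _ h2

variable {K L : Type} [Field K] [Algebra ℂ K] [CommRing L] [Algebra K L]
  (x : B D → K) (y : Fin D.rk → K) (u : (B D → ℤ) → L)

/-- the main theorem for generic `ν` -/
theorem mainGen (hxy : AlgebraicIndependent ℂ (Sum.elim x y))
    (hu : ∀ l l', u (l + l') = u l * u l') (hi : LinearIndependent K u)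
    (hs : Submodule.span K (Set.range u) = ⊤)
    (ν : D.I → ℤ) (hν : ∀ l, Min D l → l ≠ 0 → wt D ν l ≠ 0) :
    (∀ a ∈ coulomb D x y u, ∃ r ∈ R D x y, a - algebraMap K L r ∈ fixI D x y u ν) ∧
    ∀ ν' : D.I → ℤ, ((∀ i, 0 < ν' i) ∨ ∀ i, ν' i < 0) → ∀ r ∈ R D x y,
      algebraMap K L r ∈ fixI D x y u ν ↔ r ∈ kerH D x y ν' := by
  have hb : ∀ l, Module.Basis.mk hi hs.ge l = u l := fun l => Module.Basis.mk_apply hi hs.ge l
  have hb' : (Module.Basis.mk hi hs.ge : (B D → ℤ) → L) = u := funext hb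
  have hu' : ∀ l l', Module.Basis.mk hi hs.ge (l + l') =
      Module.Basis.mk hi hs.ge l * Module.Basis.mk hi hs.ge l' :=
    fun l l' => by rw [hb, hb, hb]; exact hu l l'
  have h1 := fun (ν : D.I → ℤ) hν => Vale.Agent.P291.H.main (tG D) K L x y hxy
    (Module.Basis.mk hi hs.ge) hu' ν hν
  have h2 := fun (ν : D.I → ℤ) hν {r : K} (hr : r ∈ Vale.Agent.P291.G.R (tG D) x y) =>
    Vale.Agent.P291.H.M.ker_iff (tG D) x y (Module.Basis.mk hi hs.ge) hxy hu' ν hν hr
  have e : ((Module.Basis.mk hi hs.ge : Module.Basis (B D → ℤ) K L) :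
      (Vale.Agent.P291.G.B (tG D) → ℤ) → L) = u := hb'
  rw [e] at h1 h2
  rw [coulomb_eq, fixI_eq, R_eq]
  refine ⟨(h1 ν hν).1, fun ν' hν' r hr => ?_⟩
  rw [kerH_eq D x y ν', h2 ν hν hr]
  constructor
  · intro h
    exact ((h1 ν' (wt_ne_of_sign D hν')).2.1 r hr ((h2 ν' (wt_ne_of_sign D hν') hr).2 h)).1
  · intro h
    exact Vale.Agent.P291.K.kerH_le_kerJ (tG D) x y ν' hν' h

end Vale.Agent.P291.Q
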